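import Vale.Agent.P048.Full.All

/-!
P048 hand-in: `R(C_m, K_n) = (m - 1)(n - 1) + 1` for all `m ≥ n ≥ 3` other than `(3, 3)`.
-/

namespace Vale.Agent.Results.P048.FullRange

theorem result (m n : ℕ) (hn : 3 ≤ n) (hm : n ≤ m) (hne : ¬ (m = 3 ∧ n = 3)) :
    IsLeast {N : ℕ | ∀ G : SimpleGraph (Fin N),
      (∃ v, ∃ p : G.Walk v v, p.IsCycle ∧ p.length = m) ∨ ∃ s, G.IsNIndepSet n s}
      ((m - 1) * (n - 1) + 1) :=
  Vale.Agent.P048.Full.ramsey_all hn hm hne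

end Vale.Agent.Results.P048.FullRange
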